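import Mathlib

/-!
Finite sets of labels with real slopes: components at a threshold, cuts, classes,
and the refinement lemma between two consecutive levels.
-/

open Finset
open scoped ENNReal

namespace Vale.Agent.P112.H884

set_option linter.unusedSectionVars false

variable {ι : Type*} [DecidableEq ι]

/-- `P` is connected at threshold `D`. -/
def Conn (s : ι → ℝ) (D : ℝ) (P : Finset ι) : Prop :=
  P.Nonempty ∧ ∀ A ⊆ P, A.Nonempty → A ≠ P → ∃ a ∈ A, ∃ b ∈ P, b ∉ A ∧ |s a - s b| ≤ D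

/-- `P` is a component of `S` at threshold `D`. -/
def IsComp (s : ι → ℝ) (D : ℝ) (S P : Finset ι) : Prop :=
  P ⊆ S ∧ Conn s D P ∧ ∀ a ∈ P, ∀ b ∈ S, b ∉ P → D < |s a - s b|

lemma IsComp.sub' {s : ι → ℝ} {D D' : ℝ} (hD : D' ≤ D) {S P P' : Finset ι}
    (h : IsComp s D S P) (h' : IsComp s D' S P') {a : ι} (ha : a ∈ P) (ha' : a ∈ P') :
    P' ⊆ P := by
  by_contra hne
  have hA : (P' ∩ P).Nonempty := ⟨a, mem_inter.2 ⟨ha', ha⟩⟩
  have hA2 : P' ∩ P ≠ P' := fun h0 => hne (inter_eq_left.1 h0)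
  obtain ⟨x, hx, y, hy, hyA, hxy⟩ := h'.2.1.2 _ inter_subset_left hA hA2
  have hyP : y ∉ P := fun h0 => hyA (mem_inter.2 ⟨hy, h0⟩)
  have := h.2.2 x (mem_inter.1 hx).2 y (h'.1 hy) hyP
  linarith

lemma IsComp.eq {s : ι → ℝ} {D : ℝ} {S P P' : Finset ι}
    (h : IsComp s D S P) (h' : IsComp s D S P') {a : ι} (ha : a ∈ P) (ha' : a ∈ P') :
    P = P' :=
  Subset.antisymm (h'.sub' le_rfl h ha' ha) (h.sub' le_rfl h' ha ha')

lemma IsComp.trans {s : ι → ℝ} {D D' : ℝ} (hD : D' ≤ D) {S P P' : Finset ι}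
    (h : IsComp s D S P) (h' : IsComp s D' P P') : IsComp s D' S P' := by
  refine ⟨h'.1.trans h.1, h'.2.1, fun a ha b hb hbP => ?_⟩
  by_cases hb2 : b ∈ P
  · exact h'.2.2 a ha b hb2 hbP
  · exact lt_of_le_of_lt hD (h.2.2 a (h'.1 ha) b hb hb2)

lemma exists_comp (s : ι → ℝ) (D : ℝ) {S : Finset ι} {a : ι} (ha : a ∈ S) :
    ∃ P, IsComp s D S P ∧ a ∈ P := by
  classical
  let F : Finset (Finset ι) := S.powerset.filter
    (fun T => a ∈ T ∧ ∀ x ∈ T, ∀ y ∈ S, y ∉ T → D < |s x - s y|)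
  have hF : ∀ T, T ∈ F ↔ T ⊆ S ∧ a ∈ T ∧ ∀ x ∈ T, ∀ y ∈ S, y ∉ T → D < |s x - s y| := by
    intro T; simp only [F, mem_filter, mem_powerset]
  have hS : S ∈ F := (hF S).2 ⟨Subset.rfl, ha, fun x _ y hy hn => absurd hy hn⟩
  obtain ⟨P, hP, hmin⟩ := exists_min_image F Finset.card ⟨S, hS⟩
  obtain ⟨hPS, haP, hPc⟩ := (hF P).1 hP
  refine ⟨P, ⟨hPS, ⟨⟨a, haP⟩, ?_⟩, hPc⟩, haP⟩
  intro A hA hAne hAP
  by_contra hno
  push Not at hno
  by_cases haA : a ∈ A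
  · have : A ∈ F := by
      refine (hF A).2 ⟨hA.trans hPS, haA, fun x hx y hy hyA => ?_⟩
      by_cases hyP : y ∈ P
      · exact hno x hx y hyP hyA
      · exact hPc x (hA hx) y hy hyP
    have h1 := hmin A this
    have h2 : A.card < P.card := card_lt_card (hA.ssubset_of_ne hAP)
    omega
  · have : P \ A ∈ F := by
      refine (hF _).2 ⟨sdiff_subset.trans hPS, mem_sdiff.2 ⟨haP, haA⟩, fun x hx y hy hyA => ?_⟩
      obtain ⟨hx1, hx2⟩ := mem_sdiff.1 hx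
      by_cases hyP : y ∈ P
      · have hyA' : y ∈ A := by
          by_contra h0
          exact hyA (mem_sdiff.2 ⟨hyP, h0⟩)
        have := hno y hyA' x hx1 hx2
        rwa [abs_sub_comm] at this
      · exact hPc x hx1 y hy hyP
    have h1 := hmin _ this
    have h2 : (P \ A).card < P.card := by
      refine card_lt_card (sdiff_subset.ssubset_of_ne ?_)
      intro h0
      obtain ⟨x, hx⟩ := hAne
      have hx2 : x ∈ P \ A := by
        rw [h0]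
        exact hA hx
      exact (mem_sdiff.1 hx2).2 hx
    omega

/-- `τ` is a cut of `P`: no distance in `[τ, H τ)`. -/
def Cut (s : ι → ℝ) (H τ : ℝ) (P : Finset ι) : Prop :=
  ∀ a ∈ P, ∀ b ∈ P, |s a - s b| < τ ∨ H * τ ≤ |s a - s b|

lemma Cut.mono {s : ι → ℝ} {H τ : ℝ} {P Q : Finset ι} (h : Cut s H τ P) (hQ : Q ⊆ P) :
    Cut s H τ Q := fun a ha b hb => h a (hQ ha) b (hQ hb)

lemma Cut.tri {s : ι → ℝ} {H τ : ℝ} (hH : 2 ≤ H) (hτ : 0 < τ) {P : Finset ι} (h : Cut s H τ P)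
    {a b c : ι} (ha : a ∈ P) (hc : c ∈ P) (hab : |s a - s b| < τ)
    (hbc : |s b - s c| < τ) : |s a - s c| < τ := by
  rcases h a ha c hc with h1 | h1
  · exact h1
  · exfalso
    have h2 : |s a - s c| ≤ |s a - s b| + |s b - s c| := abs_sub_le _ _ _
    nlinarith

/-- The class of `a` in `P` at the cut `τ`. -/
noncomputable def cl (s : ι → ℝ) (τ : ℝ) (P : Finset ι) (a : ι) : Finset ι :=
  P.filter (fun b => |s a - s b| < τ)

lemma mem_cl {s : ι → ℝ} {τ : ℝ} {P : Finset ι} {a b : ι} :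
    b ∈ cl s τ P a ↔ b ∈ P ∧ |s a - s b| < τ := by
  unfold cl; rw [mem_filter]

lemma self_mem_cl {s : ι → ℝ} {τ : ℝ} (hτ : 0 < τ) {P : Finset ι} {a : ι} (ha : a ∈ P) :
    a ∈ cl s τ P a := mem_cl.2 ⟨ha, by simpa using hτ⟩

lemma cl_eq {s : ι → ℝ} {H τ : ℝ} (hH : 2 ≤ H) (hτ : 0 < τ) {P : Finset ι} (h : Cut s H τ P)
    {a b : ι} (ha : a ∈ P) (hb : b ∈ cl s τ P a) : cl s τ P b = cl s τ P a := by
  obtain ⟨hbP, hab⟩ := mem_cl.1 hb
  ext x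
  rw [mem_cl, mem_cl]
  constructor
  · rintro ⟨hx, h1⟩
    exact ⟨hx, h.tri hH hτ ha hx hab h1⟩
  · rintro ⟨hx, h1⟩
    refine ⟨hx, h.tri hH hτ hbP hx ?_ h1⟩
    rwa [abs_sub_comm]

/-- The scales. -/
structure Sc where
  H : ℝ
  L : ℝ
  D0 : ℝ
  hH : 2 ≤ H
  hL : H ^ 2 ≤ L
  hD0 : 0 < D0

namespace Sc

/-- The threshold of level `n`. -/
noncomputable def Δ (p : Sc) (n : ℕ) : ℝ := p.D0 / p.L ^ n

lemma H_pos (p : Sc) : 0 < p.H := by have := p.hH; linarith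

lemma L_ge (p : Sc) : 4 ≤ p.L := by
  have h1 := p.hH
  have h2 := p.hL
  nlinarith

lemma L_pos (p : Sc) : 0 < p.L := by have := p.L_ge; linarith

lemma Δ_pos (p : Sc) (n : ℕ) : 0 < p.Δ n := by
  unfold Δ
  have := p.hD0
  have := p.L_pos
  positivity

lemma Δ_succ (p : Sc) (n : ℕ) : p.Δ n = p.L * p.Δ (n + 1) := by
  unfold Δ
  have := p.L_pos
  rw [pow_succ]
  field_simp

lemma Δ_succ_le (p : Sc) (n : ℕ) : p.Δ (n + 1) ≤ p.Δ n := by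
  rw [p.Δ_succ n]
  have := p.Δ_pos (n + 1)
  have := p.L_ge
  nlinarith

/-- The window of level `n`. -/
def Win (p : Sc) (n : ℕ) (τ : ℝ) : Prop := p.H * p.Δ (n + 2) ≤ τ ∧ τ ≤ p.Δ (n + 1) / p.H

lemma Win.pos {p : Sc} {n : ℕ} {τ : ℝ} (h : p.Win n τ) : 0 < τ :=
  lt_of_lt_of_le (mul_pos p.H_pos (p.Δ_pos _)) h.1

lemma Win.le {p : Sc} {n : ℕ} {τ : ℝ} (h : p.Win n τ) : τ ≤ p.Δ (n + 1) := by
  refine h.2.trans ?_
  have h1 := p.hH
  have h2 := p.Δ_pos (n + 1)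
  rw [div_le_iff₀ p.H_pos]
  nlinarith

lemma Win.lt_next {p : Sc} {n : ℕ} {τ τ' : ℝ} (h : p.Win n τ) (h' : p.Win (n + 1) τ') :
    τ' ≤ τ := by
  have h1 := h.1
  have h2 := h'.le
  have h3 := p.hH
  have h4 := p.Δ_pos (n + 2)
  have : p.Δ (n + 1 + 1) = p.Δ (n + 2) := rfl
  rw [this] at h2
  nlinarith

end Sc

/-- The chosen cut of `P` in the window of level `n`. -/
noncomputable def tau (p : Sc) (s : ι → ℝ) (n : ℕ) (P : Finset ι) : ℝ :=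
  open Classical in
  if h : ∃ τ, p.Win n τ ∧ Cut s p.H τ P then h.choose else 0

/-- The classes of `P` at level `n`. -/
noncomputable def cls (p : Sc) (s : ι → ℝ) (n : ℕ) (P : Finset ι) : Finset (Finset ι) :=
  P.image (cl s (tau p s n P) P)

/-- A hereditary family of finite sets in which cuts exist. -/
structure Good (p : Sc) (s : ι → ℝ) (𝒢 : Finset ι → Prop) : Prop where
  her : ∀ P Q, 𝒢 P → Q ⊆ P → 𝒢 Q
  cut : ∀ P n, 𝒢 P → Conn s (p.Δ n) P → ∃ τ, p.Win n τ ∧ Cut s p.H τ P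

section
variable {p : Sc} {s : ι → ℝ} {𝒢 : Finset ι → Prop}

lemma Good.tau_spec (hg : Good p s 𝒢) {P : Finset ι} {n : ℕ} (h1 : 𝒢 P)
    (h2 : Conn s (p.Δ n) P) : p.Win n (tau p s n P) ∧ Cut s p.H (tau p s n P) P := by
  have h := hg.cut P n h1 h2
  unfold tau
  rw [dif_pos h]
  exact h.choose_spec

lemma mem_cls {n : ℕ} {P C : Finset ι} :
    C ∈ cls p s n P ↔ ∃ a ∈ P, cl s (tau p s n P) P a = C := by
  unfold cls; rw [mem_image]

lemma cls_sub {n : ℕ} {P C : Finset ι} (h : C ∈ cls p s n P) : C ⊆ P := by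
  obtain ⟨a, _, rfl⟩ := mem_cls.1 h
  exact filter_subset _ _

lemma Good.cls_ne (hg : Good p s 𝒢) {P C : Finset ι} {n : ℕ} (h1 : 𝒢 P)
    (h2 : Conn s (p.Δ n) P) (h : C ∈ cls p s n P) : C.Nonempty := by
  obtain ⟨a, ha, rfl⟩ := mem_cls.1 h
  exact ⟨a, self_mem_cl (hg.tau_spec h1 h2).1.pos ha⟩

lemma Good.cls_eq_cl (hg : Good p s 𝒢) {P C : Finset ι} {n : ℕ} (h1 : 𝒢 P)
    (h2 : Conn s (p.Δ n) P) (h : C ∈ cls p s n P) {a : ι} (ha : a ∈ C) :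
    C = cl s (tau p s n P) P a := by
  obtain ⟨b, hb, rfl⟩ := mem_cls.1 h
  obtain ⟨hw, hc⟩ := hg.tau_spec h1 h2
  exact (cl_eq p.hH hw.pos hc hb ha).symm

lemma Good.cls_inj (hg : Good p s 𝒢) {P C C' : Finset ι} {n : ℕ} (h1 : 𝒢 P)
    (h2 : Conn s (p.Δ n) P) (h : C ∈ cls p s n P) (h' : C' ∈ cls p s n P) {a : ι} (ha : a ∈ C)
    (ha' : a ∈ C') : C = C' := by
  rw [hg.cls_eq_cl h1 h2 h ha, hg.cls_eq_cl h1 h2 h' ha']

lemma Good.cls_diam (hg : Good p s 𝒢) {P C : Finset ι} {n : ℕ} (h1 : 𝒢 P)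
    (h2 : Conn s (p.Δ n) P) (h : C ∈ cls p s n P) {a b : ι} (ha : a ∈ C) (hb : b ∈ C) :
    |s a - s b| < tau p s n P := by
  rw [hg.cls_eq_cl h1 h2 h ha] at hb
  exact (mem_cl.1 hb).2

/-- The component of the next level containing the class `C`. -/
noncomputable def nxt (p : Sc) (s : ι → ℝ) (n : ℕ) (P C : Finset ι) : Finset ι :=
  open Classical in
  P.filter (fun b => ∃ P', IsComp s (p.Δ (n + 1)) P P' ∧ C ⊆ P' ∧ b ∈ P')

lemma Good.nxt_spec (hg : Good p s 𝒢) {P C : Finset ι} {n : ℕ} (h1 : 𝒢 P)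
    (h2 : Conn s (p.Δ n) P) (h : C ∈ cls p s n P) :
    IsComp s (p.Δ (n + 1)) P (nxt p s n P C) ∧ C ⊆ nxt p s n P C := by
  classical
  obtain ⟨c, hc⟩ := hg.cls_ne h1 h2 h
  obtain ⟨P', hP', hcP'⟩ := exists_comp s (p.Δ (n + 1)) (cls_sub h hc)
  have hCP' : C ⊆ P' := by
    intro b hb
    by_contra hbP
    have h3 := hP'.2.2 c hcP' b (cls_sub h hb) hbP
    have h4 := hg.cls_diam h1 h2 h hc hb
    have h5 := (hg.tau_spec h1 h2).1.le
    linarith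
  have : nxt p s n P C = P' := by
    ext b
    unfold nxt
    rw [mem_filter]
    constructor
    · rintro ⟨_, Q, hQ, hCQ, hbQ⟩
      rwa [← hQ.eq hP' (hCQ hc) (hCP' hc)]
    · intro hb
      exact ⟨hP'.1 hb, P', hP', hCP', hb⟩
  rw [this]
  exact ⟨hP', hCP'⟩

/-- The pieces of the class `C` at the next level. -/
noncomputable def pcs (p : Sc) (s : ι → ℝ) (n : ℕ) (P C : Finset ι) : Finset (Finset ι) :=
  (cls p s (n + 1) (nxt p s n P C)).filter (fun e => e ⊆ C)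

/-- The cut used for the class `C`. -/
noncomputable def tauN (p : Sc) (s : ι → ℝ) (n : ℕ) (P C : Finset ι) : ℝ :=
  tau p s (n + 1) (nxt p s n P C)

lemma Good.nxt_good (hg : Good p s 𝒢) {P C : Finset ι} {n : ℕ} (h1 : 𝒢 P)
    (h2 : Conn s (p.Δ n) P) (h : C ∈ cls p s n P) : 𝒢 (nxt p s n P C) :=
  hg.her _ _ h1 (hg.nxt_spec h1 h2 h).1.1

lemma Good.tauN_spec (hg : Good p s 𝒢) {P C : Finset ι} {n : ℕ} (h1 : 𝒢 P)
    (h2 : Conn s (p.Δ n) P) (h : C ∈ cls p s n P) :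
    p.Win (n + 1) (tauN p s n P C) ∧ Cut s p.H (tauN p s n P C) (nxt p s n P C) :=
  hg.tau_spec (hg.nxt_good h1 h2 h) (hg.nxt_spec h1 h2 h).1.2.1

/-- For `a ∈ C` the class of `a` at the next level is the class of `a` inside `C`. -/
lemma Good.cl_nxt (hg : Good p s 𝒢) {P C : Finset ι} {n : ℕ} (h1 : 𝒢 P)
    (h2 : Conn s (p.Δ n) P) (h : C ∈ cls p s n P) {a : ι} (ha : a ∈ C) :
    cl s (tauN p s n P C) (nxt p s n P C) a = cl s (tauN p s n P C) C a := by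
  have h3 := hg.nxt_spec h1 h2 h
  have h4 := hg.tauN_spec h1 h2 h
  have h5 := hg.tau_spec h1 h2
  have h6 := Sc.Win.lt_next h5.1 h4.1
  ext b
  rw [mem_cl, mem_cl]
  constructor
  · rintro ⟨hb, hab⟩
    refine ⟨?_, hab⟩
    rw [hg.cls_eq_cl h1 h2 h ha]
    exact mem_cl.2 ⟨h3.1.1 hb, lt_of_lt_of_le hab h6⟩
  · rintro ⟨hb, hab⟩
    exact ⟨h3.2 hb, hab⟩

lemma Good.mem_pcs (hg : Good p s 𝒢) {P C e : Finset ι} {n : ℕ} (h1 : 𝒢 P)
    (h2 : Conn s (p.Δ n) P) (h : C ∈ cls p s n P) :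
    e ∈ pcs p s n P C ↔ ∃ a ∈ C, cl s (tauN p s n P C) C a = e := by
  have h3 := hg.nxt_spec h1 h2 h
  have h4 := hg.tauN_spec h1 h2 h
  unfold pcs
  rw [mem_filter, mem_cls]
  constructor
  · rintro ⟨⟨a, ha, hae⟩, heC⟩
    have haa : a ∈ e := by
      rw [← hae]
      exact self_mem_cl h4.1.pos ha
    refine ⟨a, heC haa, ?_⟩
    rw [← hg.cl_nxt h1 h2 h (heC haa)]
    exact hae
  · rintro ⟨a, ha, hae⟩
    refine ⟨⟨a, h3.2 ha, ?_⟩, ?_⟩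
    · rw [← hae, ← hg.cl_nxt h1 h2 h ha]
      rfl
    · rw [← hae]
      exact filter_subset _ _

lemma Good.pcs_eq (hg : Good p s 𝒢) {P C : Finset ι} {n : ℕ} (h1 : 𝒢 P)
    (h2 : Conn s (p.Δ n) P) (h : C ∈ cls p s n P) :
    pcs p s n P C = C.image (cl s (tauN p s n P C) C) := by
  ext e
  rw [hg.mem_pcs h1 h2 h, mem_image]

lemma Good.pcs_cut (hg : Good p s 𝒢) {P C : Finset ι} {n : ℕ} (h1 : 𝒢 P)
    (h2 : Conn s (p.Δ n) P) (h : C ∈ cls p s n P) : Cut s p.H (tauN p s n P C) C :=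
  (hg.tauN_spec h1 h2 h).2.mono (hg.nxt_spec h1 h2 h).2

lemma Good.pcs_ne (hg : Good p s 𝒢) {P C : Finset ι} {n : ℕ} (h1 : 𝒢 P)
    (h2 : Conn s (p.Δ n) P) (h : C ∈ cls p s n P) : (pcs p s n P C).Nonempty := by
  obtain ⟨a, ha⟩ := hg.cls_ne h1 h2 h
  exact ⟨_, (hg.mem_pcs h1 h2 h).2 ⟨a, ha, rfl⟩⟩

/-- If there is only one piece it is `C` itself. -/
lemma Good.pcs_one (hg : Good p s 𝒢) {P C : Finset ι} {n : ℕ} (h1 : 𝒢 P)
    (h2 : Conn s (p.Δ n) P) (h : C ∈ cls p s n P) (hc : (pcs p s n P C).card ≤ 1) :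
    pcs p s n P C = {C} := by
  have h4 := hg.tauN_spec h1 h2 h
  obtain ⟨e, he⟩ := hg.pcs_ne h1 h2 h
  have h5 : pcs p s n P C = {e} := by
    rw [eq_singleton_iff_unique_mem]
    refine ⟨he, fun x hx => ?_⟩
    exact card_le_one.1 hc x hx e he
  have h6 : e = C := by
    refine Subset.antisymm ?_ ?_
    · obtain ⟨a, _, rfl⟩ := (hg.mem_pcs h1 h2 h).1 he
      exact filter_subset _ _
    · intro b hb
      have h7 : cl s (tauN p s n P C) C b ∈ pcs p s n P C :=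
        (hg.mem_pcs h1 h2 h).2 ⟨b, hb, rfl⟩
      rw [h5, mem_singleton] at h7
      rw [← h7]
      exact self_mem_cl h4.1.pos hb
  rw [h5, h6]

end

section
variable [Fintype ι] {p : Sc} {s : ι → ℝ} {𝒢 : Finset ι → Prop}

/-- The good components of `S` at level `n`. -/
noncomputable def Lab (p : Sc) (s : ι → ℝ) (𝒢 : Finset ι → Prop) (n : ℕ) (S : Finset ι) :
    Finset (Finset ι) :=
  open Classical in
  (univ : Finset (Finset ι)).filter (fun P => IsComp s (p.Δ n) S P ∧ 𝒢 P)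

lemma mem_Lab {n : ℕ} {S P : Finset ι} : P ∈ Lab p s 𝒢 n S ↔ IsComp s (p.Δ n) S P ∧ 𝒢 P := by
  classical
  simp [Lab]

/-- Refinement lemma. -/
theorem Good.refine (hg : Good p s 𝒢) (n : ℕ) (S : Finset ι) (f : Finset ι → ℝ≥0∞) :
    ∑ P ∈ Lab p s 𝒢 n S, ∑ C ∈ cls p s n P, ∑ e ∈ pcs p s n P C, f e ≤
      ∑ P ∈ Lab p s 𝒢 (n + 1) S, ∑ e ∈ cls p s (n + 1) P, f e := by
  classical
  rw [Finset.sum_sigma', Finset.sum_sigma', Finset.sum_sigma']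
  have hinj : Set.InjOn
      (fun x : (Σ _ : (Σ _ : Finset ι, Finset ι), Finset ι) =>
        (⟨nxt p s n x.1.1 x.1.2, x.2⟩ : Σ _ : Finset ι, Finset ι))
      (((Lab p s 𝒢 n S).sigma fun P => cls p s n P).sigma fun x => pcs p s n x.1 x.2 :
        Finset (Σ _ : (Σ _ : Finset ι, Finset ι), Finset ι)) := by
    rintro ⟨⟨P, C⟩, e⟩ hx ⟨⟨P', C'⟩, e'⟩ hx' hxx
    simp only [Finset.coe_sigma, Set.mem_sigma_iff, Finset.mem_coe] at hx hx'
    obtain ⟨⟨hP, hC⟩, he⟩ := hx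
    obtain ⟨⟨hP', hC'⟩, he'⟩ := hx'
    simp only [Sigma.mk.injEq, heq_eq_eq] at hxx
    obtain ⟨_, rfl⟩ := hxx
    obtain ⟨hPc, hPg⟩ := mem_Lab.1 hP
    obtain ⟨hPc', hPg'⟩ := mem_Lab.1 hP'
    obtain ⟨a, ha, hae⟩ := (hg.mem_pcs hPg hPc.2.1 hC).1 he
    have haa : a ∈ e := by
      rw [← hae]; exact self_mem_cl (hg.tauN_spec hPg hPc.2.1 hC).1.pos ha
    have heC' : e ⊆ C' := by
      obtain ⟨b, _, hb⟩ := (hg.mem_pcs hPg' hPc'.2.1 hC').1 he'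
      rw [← hb]; exact filter_subset _ _
    have hPP : P = P' := hPc.eq hPc' (cls_sub hC ha) (cls_sub hC' (heC' haa))
    subst hPP
    have hCC : C = C' := hg.cls_inj hPg hPc.2.1 hC hC' ha (heC' haa)
    subst hCC
    rfl
  rw [← Finset.sum_image (f := fun y : (Σ _ : Finset ι, Finset ι) => f y.2) hinj]
  refine Finset.sum_le_sum_of_subset ?_
  intro y hy
  rw [mem_image] at hy
  obtain ⟨⟨⟨P, C⟩, e⟩, hx, rfl⟩ := hy
  simp only [Finset.mem_sigma] at hx ⊢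
  obtain ⟨⟨hP, hC⟩, he⟩ := hx
  obtain ⟨hPc, hPg⟩ := mem_Lab.1 hP
  have h3 := hg.nxt_spec hPg hPc.2.1 hC
  refine ⟨mem_Lab.2 ⟨hPc.trans (p.Δ_succ_le n) h3.1, hg.nxt_good hPg hPc.2.1 hC⟩, ?_⟩
  exact (mem_filter.1 he).1

end

end Vale.Agent.P112.H884
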