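import Vale.Agent.P112.H884.Comb

/-!
The recursion in abstract form: potentials `φ C z` of finite sets of labels, a level functional,
and its monotonicity under refinement of the levels.
-/

open MeasureTheory Finset
open scoped ENNReal

namespace Vale.Agent.P112.H884

set_option linter.unusedSectionVars false

variable {ι : Type*} [DecidableEq ι] [Fintype ι]

/-- The point `z` moved by the time `t` along a line of slope `v`. -/
def mv (z : ℝ × ℝ) (t v : ℝ) : ℝ × ℝ := (z.1 + t, z.2 + t * v)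

/-- Data for the recursion. `S z` is the set of active labels, `φ C z` the potential of the
set `C`, `D` the error, `B` the bad set, `X n P C` the averaging time and `v n P C` the slope. -/
structure Rec (p : Sc) (s : ι → ℝ) (𝒢 : Finset ι → Prop) (S : ℝ × ℝ → Finset ι)
    (φ : Finset ι → ℝ × ℝ → ℝ≥0∞) (D : ℝ × ℝ → ℝ≥0∞) (B : Set (ℝ × ℝ))
    (X v : ℕ → Finset ι → Finset ι → ℝ) : Prop where
  good : Good p s 𝒢
  mS : ∀ T, MeasurableSet {z | S z = T}
  mφ : ∀ C, Measurable (φ C)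
  mD : Measurable D
  mB : MeasurableSet B
  Xpos : ∀ n P C, 0 < X n P C
  node : ∀ n P C z, 𝒢 P → IsComp s (p.Δ n) (S z) P → C ∈ cls p s n P →
    2 ≤ (pcs p s n P C).card →
    ∫⁻ t in Set.Icc 0 (X n P C), φ C (mv z t (v n P C)) ≤
      ENNReal.ofReal (X n P C) * (∑ e ∈ pcs p s n P C, φ e z + D z)
  stab : ∀ n P C z t, 𝒢 P → C ∈ cls p s n P → 2 ≤ (pcs p s n P C).card →
    0 ≤ t → t ≤ X n P C → IsComp s (p.Δ n) (S (mv z t (v n P C))) P →
    mv z t (v n P C) ∉ B → IsComp s (p.Δ n) (S z) P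
  triv : ∀ C z, z ∈ B → 𝒢 C → C ⊆ S z → φ C z ≤ D z

section
variable {p : Sc} {s : ι → ℝ} {𝒢 : Finset ι → Prop} {S : ℝ × ℝ → Finset ι}
  {φ : Finset ι → ℝ × ℝ → ℝ≥0∞} {D : ℝ × ℝ → ℝ≥0∞} {B : Set (ℝ × ℝ)}
  {X v : ℕ → Finset ι → Finset ι → ℝ}

/-- The set of points at which `P` is a component. -/
def Y (p : Sc) (s : ι → ℝ) (S : ℝ × ℝ → Finset ι) (n : ℕ) (P : Finset ι) : Set (ℝ × ℝ) :=
  {z | IsComp s (p.Δ n) (S z) P}

lemma meas_of_S (mS : ∀ T, MeasurableSet {z | S z = T}) (q : Finset ι → Prop) :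
    MeasurableSet {z | q (S z)} := by
  classical
  have : {z | q (S z)} = ⋃ T ∈ {T : Finset ι | q T}, {z | S z = T} := by
    ext z
    simp
  rw [this]
  exact MeasurableSet.biUnion (Set.to_countable _) fun T _ => mS T

lemma Rec.meas_Y (h : Rec p s 𝒢 S φ D B X v) (n : ℕ) (P : Finset ι) :
    MeasurableSet (Y p s S n P) := meas_of_S h.mS (fun T => IsComp s (p.Δ n) T P)

lemma measurable_mv (v : ℝ) : Measurable fun x : ℝ × (ℝ × ℝ) => mv x.2 x.1 v := by
  unfold mv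
  fun_prop

lemma lintegral_mv (g : ℝ × ℝ → ℝ≥0∞) (t v : ℝ) : ∫⁻ z, g (mv z t v) = ∫⁻ z, g z := by
  have := lintegral_add_right_eq_self (μ := (volume : Measure (ℝ × ℝ))) g ((t, t * v) : ℝ × ℝ)
  exact this

/-- Averaging along segments. -/
lemma avg_swap {g : ℝ × ℝ → ℝ≥0∞} (hg : Measurable g) (X : ℝ) (v : ℝ) :
    ENNReal.ofReal X * ∫⁻ z, g z = ∫⁻ z, ∫⁻ t in Set.Icc 0 X, g (mv z t v) := by
  have h1 : ∫⁻ t in Set.Icc 0 X, ∫⁻ z, g (mv z t v) = ENNReal.ofReal X * ∫⁻ z, g z := by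
    simp_rw [lintegral_mv]
    rw [lintegral_const, Measure.restrict_apply MeasurableSet.univ, Set.univ_inter,
      Real.volume_Icc, sub_zero, mul_comm]
  rw [← h1]
  refine lintegral_lintegral_swap ?_
  exact (hg.comp (measurable_mv v)).aemeasurable

/-- One class, at least two pieces: the part off the bad set. -/
lemma Rec.node_int (h : Rec p s 𝒢 S φ D B X v) {n : ℕ} {P C : Finset ι} (hP : 𝒢 P)
    (hC : C ∈ cls p s n P) (hq : 2 ≤ (pcs p s n P C).card) :
    ∫⁻ z in Y p s S n P \ B, φ C z ≤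
      ∫⁻ z in Y p s S n P, (∑ e ∈ pcs p s n P C, φ e z + D z) := by
  have hX := h.Xpos n P C
  have hYm := h.meas_Y n P
  set g : ℝ × ℝ → ℝ≥0∞ := (Y p s S n P \ B).indicator (φ C) with hg
  have hgm : Measurable g := (h.mφ C).indicator (hYm.diff h.mB)
  have h1 : ENNReal.ofReal (X n P C) * ∫⁻ z, g z ≤
      ENNReal.ofReal (X n P C) *
        ∫⁻ z in Y p s S n P, (∑ e ∈ pcs p s n P C, φ e z + D z) := by
    have hm1 : Measurable fun z => ∑ e ∈ pcs p s n P C, φ e z + D z :=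
      (Finset.measurable_sum _ fun e _ => h.mφ e).add h.mD
    rw [avg_swap hgm _ (v n P C), ← lintegral_const_mul _ hm1, ← lintegral_indicator hYm]
    refine lintegral_mono fun z => ?_
    by_cases hz : z ∈ Y p s S n P
    · rw [Set.indicator_of_mem hz]
      refine le_trans (lintegral_mono fun t => ?_) (h.node n P C z hP hz hC hq)
      exact Set.indicator_le_self _ _ _
    · rw [Set.indicator_of_notMem hz]
      refine le_of_eq ?_
      rw [setLIntegral_congr_fun (g := fun _ => (0 : ℝ≥0∞)) measurableSet_Icc, lintegral_zero]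
      intro t ht
      simp only [hg]
      refine Set.indicator_of_notMem ?_ _
      rintro ⟨h2, h3⟩
      exact hz (h.stab n P C z t hP hC hq ht.1 ht.2 h2 h3)
  rw [← lintegral_indicator (hYm.diff h.mB)]
  have h0 : ENNReal.ofReal (X n P C) ≠ 0 := by
    simpa using hX
  exact (ENNReal.mul_le_mul_iff_right h0 ENNReal.ofReal_ne_top).1 h1

/-- One class. -/
lemma Rec.class_step (h : Rec p s 𝒢 S φ D B X v) {n : ℕ} {P C : Finset ι} (hP : 𝒢 P)
    (hC : C ∈ cls p s n P) :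
    ∫⁻ z in Y p s S n P, (φ C z + 2 * D z) ≤
      ∫⁻ z in Y p s S n P, ∑ e ∈ pcs p s n P C, (φ e z + 2 * D z) := by
  have hYm := h.meas_Y n P
  by_cases hc : Conn s (p.Δ n) P
  · by_cases hq : 2 ≤ (pcs p s n P C).card
    · have h1 : ∫⁻ z in Y p s S n P, φ C z ≤
          (∫⁻ z in Y p s S n P, (∑ e ∈ pcs p s n P C, φ e z + D z)) +
            ∫⁻ z in Y p s S n P, D z := by
        have h2 : ∫⁻ z in Y p s S n P, φ C z =
            (∫⁻ z in Y p s S n P ∩ B, φ C z) + ∫⁻ z in Y p s S n P \ B, φ C z :=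
          (lintegral_inter_add_sdiff _ _ h.mB).symm
        rw [h2, add_comm]
        refine add_le_add (h.node_int hP hC hq) ?_
        calc ∫⁻ z in Y p s S n P ∩ B, φ C z ≤ ∫⁻ z in Y p s S n P ∩ B, D z := by
              refine setLIntegral_mono' (hYm.inter h.mB) fun z hz => ?_
              have hz1 : IsComp s (p.Δ n) (S z) P := hz.1
              exact h.triv C z hz.2 (h.good.her _ _ hP (cls_sub hC)) ((cls_sub hC).trans hz1.1)
          _ ≤ ∫⁻ z in Y p s S n P, D z := lintegral_mono_set Set.inter_subset_left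
      have hm1 : Measurable fun z => ∑ e ∈ pcs p s n P C, φ e z :=
        Finset.measurable_sum _ fun e _ => h.mφ e
      calc ∫⁻ z in Y p s S n P, (φ C z + 2 * D z)
          = (∫⁻ z in Y p s S n P, φ C z) + ∫⁻ z in Y p s S n P, 2 * D z :=
            lintegral_add_left (h.mφ C) _
        _ ≤ ((∫⁻ z in Y p s S n P, (∑ e ∈ pcs p s n P C, φ e z + D z)) +
              ∫⁻ z in Y p s S n P, D z) + ∫⁻ z in Y p s S n P, 2 * D z :=
            add_le_add h1 le_rfl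
        _ = ∫⁻ z in Y p s S n P, ((∑ e ∈ pcs p s n P C, φ e z + D z) + D z + 2 * D z) := by
            have hm2 : Measurable fun z => ∑ e ∈ pcs p s n P C, φ e z + D z := hm1.add h.mD
            have hm3 : Measurable fun z => ∑ e ∈ pcs p s n P C, φ e z + D z + D z :=
              hm2.add h.mD
            rw [lintegral_add_left hm3, lintegral_add_left hm2]
        _ ≤ ∫⁻ z in Y p s S n P, ∑ e ∈ pcs p s n P C, (φ e z + 2 * D z) := by
            refine lintegral_mono fun z => ?_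
            dsimp only
            rw [Finset.sum_add_distrib, Finset.sum_const, nsmul_eq_mul]
            have h3 : (2 : ℝ≥0∞) ≤ ((pcs p s n P C).card : ℝ≥0∞) := by exact_mod_cast hq
            have h4 : D z + D z + 2 * D z ≤ ((pcs p s n P C).card : ℝ≥0∞) * (2 * D z) := by
              calc D z + D z + 2 * D z = 2 * (2 * D z) := by ring
                _ ≤ _ := by gcongr
            calc (∑ e ∈ pcs p s n P C, φ e z + D z) + D z + 2 * D z
                = ∑ e ∈ pcs p s n P C, φ e z + (D z + D z + 2 * D z) := by ring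
              _ ≤ _ := by gcongr
    · have h1 : pcs p s n P C = {C} := h.good.pcs_one hP hc hC (by omega)
      rw [h1]
      simp
  · have h1 : Y p s S n P = ∅ := by
      ext z
      simp only [Y, Set.mem_ofPred_eq, Set.mem_empty_iff_false, iff_false]
      intro h2
      exact hc h2.2.1
    rw [h1]
    simp

/-- The level functional. -/
noncomputable def Psi (p : Sc) (s : ι → ℝ) (𝒢 : Finset ι → Prop) (S : ℝ × ℝ → Finset ι)
    (φ : Finset ι → ℝ × ℝ → ℝ≥0∞) (D : ℝ × ℝ → ℝ≥0∞) (n : ℕ) (z : ℝ × ℝ) : ℝ≥0∞ :=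
  ∑ P ∈ Lab p s 𝒢 n (S z), ∑ C ∈ cls p s n P, (φ C z + 2 * D z)

lemma sum_Lab (f : Finset ι → ℝ × ℝ → ℝ≥0∞) (n : ℕ) (z : ℝ × ℝ) :
    ∑ P ∈ Lab p s 𝒢 n (S z), f P z =
      open Classical in
      ∑ P ∈ (univ : Finset (Finset ι)).filter 𝒢, (Y p s S n P).indicator (f P) z := by
  classical
  have h1 : Lab p s 𝒢 n (S z) = ((univ : Finset (Finset ι)).filter 𝒢).filter
      (fun P => z ∈ Y p s S n P) := by
    ext P
    rw [mem_Lab, Finset.mem_filter, Finset.mem_filter]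
    constructor
    · rintro ⟨h2, h3⟩
      exact ⟨⟨Finset.mem_univ _, h3⟩, h2⟩
    · rintro ⟨⟨_, h3⟩, h2⟩
      exact ⟨h2, h3⟩
  rw [h1, Finset.sum_filter]
  refine Finset.sum_congr rfl fun P _ => ?_
  by_cases hz : z ∈ Y p s S n P
  · rw [if_pos hz, Set.indicator_of_mem hz]
  · rw [if_neg hz, Set.indicator_of_notMem hz]

/-- One level. -/
theorem Rec.step (h : Rec p s 𝒢 S φ D B X v) (n : ℕ) :
    ∫⁻ z, Psi p s 𝒢 S φ D n z ≤ ∫⁻ z, Psi p s 𝒢 S φ D (n + 1) z := by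
  classical
  have hm : ∀ C, Measurable fun z => φ C z + 2 * D z := fun C =>
    (h.mφ C).add (h.mD.const_mul 2)
  have h1 : ∫⁻ z, Psi p s 𝒢 S φ D n z =
      ∑ P ∈ (univ : Finset (Finset ι)).filter 𝒢, ∑ C ∈ cls p s n P,
        ∫⁻ z in Y p s S n P, (φ C z + 2 * D z) := by
    have : ∀ z, Psi p s 𝒢 S φ D n z = ∑ P ∈ (univ : Finset (Finset ι)).filter 𝒢,
        (Y p s S n P).indicator (fun z => ∑ C ∈ cls p s n P, (φ C z + 2 * D z)) z := by
      intro z
      unfold Psi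
      rw [sum_Lab (fun P z => ∑ C ∈ cls p s n P, (φ C z + 2 * D z)) n z]
    simp_rw [this]
    rw [lintegral_finsetSum _ fun P _ =>
      (Finset.measurable_sum _ fun C _ => hm C).indicator (h.meas_Y n P)]
    refine Finset.sum_congr rfl fun P _ => ?_
    rw [lintegral_indicator (h.meas_Y n P), lintegral_finsetSum _ fun C _ => hm C]
  have h2 : ∑ P ∈ (univ : Finset (Finset ι)).filter 𝒢, ∑ C ∈ cls p s n P,
        ∫⁻ z in Y p s S n P, ∑ e ∈ pcs p s n P C, (φ e z + 2 * D z) =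
      ∫⁻ z, ∑ P ∈ Lab p s 𝒢 n (S z), ∑ C ∈ cls p s n P, ∑ e ∈ pcs p s n P C,
        (φ e z + 2 * D z) := by
    have : ∀ z, (∑ P ∈ Lab p s 𝒢 n (S z), ∑ C ∈ cls p s n P, ∑ e ∈ pcs p s n P C,
        (φ e z + 2 * D z)) = ∑ P ∈ (univ : Finset (Finset ι)).filter 𝒢,
        (Y p s S n P).indicator (fun z => ∑ C ∈ cls p s n P, ∑ e ∈ pcs p s n P C,
          (φ e z + 2 * D z)) z := by
      intro z
      rw [sum_Lab (fun P z => ∑ C ∈ cls p s n P, ∑ e ∈ pcs p s n P C, (φ e z + 2 * D z)) n z]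
    simp_rw [this]
    have hm2 : ∀ P C, Measurable fun z => ∑ e ∈ pcs p s n P C, (φ e z + 2 * D z) :=
      fun P C => Finset.measurable_sum _ fun e _ => hm e
    rw [lintegral_finsetSum _ fun P _ =>
      (Finset.measurable_sum _ fun C _ => hm2 P C).indicator (h.meas_Y n P)]
    refine Finset.sum_congr rfl fun P _ => ?_
    rw [lintegral_indicator (h.meas_Y n P), lintegral_finsetSum _ fun C _ => hm2 P C]
  rw [h1]
  calc _ ≤ ∑ P ∈ (univ : Finset (Finset ι)).filter 𝒢, ∑ C ∈ cls p s n P,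
        ∫⁻ z in Y p s S n P, ∑ e ∈ pcs p s n P C, (φ e z + 2 * D z) := by
        refine Finset.sum_le_sum fun P hP => Finset.sum_le_sum fun C hC => ?_
        exact h.class_step (mem_filter.1 hP).2 hC
    _ = _ := h2
    _ ≤ _ := lintegral_mono fun z => h.good.refine n (S z) (fun e => φ e z + 2 * D z)

theorem Rec.steps (h : Rec p s 𝒢 S φ D B X v) (n : ℕ) :
    ∫⁻ z, Psi p s 𝒢 S φ D 0 z ≤ ∫⁻ z, Psi p s 𝒢 S φ D n z := by
  induction n with
  | zero => exact le_rfl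
  | succ n ih => exact ih.trans (h.step n)

/-- The first level: the only component is the whole set. -/
lemma Psi_zero_ge (hg : Good p s 𝒢) (h0 : ∀ a b, |s a - s b| < p.H * p.Δ 2) {z : ℝ × ℝ}
    (hz : 𝒢 (S z)) (hne : (S z).Nonempty) : φ (S z) z ≤ Psi p s 𝒢 S φ D 0 z := by
  have hΔ : p.H * p.Δ 2 ≤ p.Δ 0 := by
    have h1 := p.Δ_succ 0
    have h2 := p.Δ_succ 1
    have h3 := p.Δ_pos 2
    have h4 := p.hL
    have h5 := p.hH
    have h6 := p.L_ge
    have h7 : p.Δ 0 = p.L * (p.L * p.Δ 2) := by rw [h1, h2]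
    rw [h7]
    have h8 : p.H ≤ p.L := by nlinarith
    have h9 : p.H * p.Δ 2 ≤ p.L * p.Δ 2 := mul_le_mul_of_nonneg_right h8 h3.le
    have h10 : p.L * p.Δ 2 ≤ p.L * (p.L * p.Δ 2) := by
      have : 0 ≤ p.L * p.Δ 2 := by positivity
      nlinarith
    exact h9.trans h10
  have hc : Conn s (p.Δ 0) (S z) := by
    refine ⟨hne, fun A hA hAne hAS => ?_⟩
    obtain ⟨a, ha⟩ := hAne
    have : ∃ b ∈ S z, b ∉ A := by
      by_contra hno
      push Not at hno
      exact hAS (Subset.antisymm hA hno)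
    obtain ⟨b, hb, hbA⟩ := this
    exact ⟨a, ha, b, hb, hbA, (h0 a b).le.trans hΔ⟩
  have hP : S z ∈ Lab p s 𝒢 0 (S z) :=
    mem_Lab.2 ⟨⟨Subset.rfl, hc, fun a _ b hb hn => absurd hb hn⟩, hz⟩
  have hC : S z ∈ cls p s 0 (S z) := by
    obtain ⟨a, ha⟩ := hne
    refine mem_cls.2 ⟨a, ha, ?_⟩
    refine Subset.antisymm (filter_subset _ _) fun b hb => mem_cl.2 ⟨hb, ?_⟩
    exact lt_of_lt_of_le (h0 a b) (hg.tau_spec hz hc).1.1
  unfold Psi
  calc φ (S z) z ≤ φ (S z) z + 2 * D z := le_self_add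
    _ ≤ ∑ C ∈ cls p s 0 (S z), (φ C z + 2 * D z) :=
        Finset.single_le_sum (f := fun C => φ C z + 2 * D z) (fun _ _ => zero_le) hC
    _ ≤ _ := Finset.single_le_sum
        (f := fun P => ∑ C ∈ cls p s 0 P, (φ C z + 2 * D z)) (fun _ _ => zero_le) hP

/-- The last level: all classes are single labels. -/
lemma Psi_last_le (hg : Good p s 𝒢) {n : ℕ} {z : ℝ × ℝ}
    (hn : ∀ a ∈ S z, ∀ b ∈ S z, a ≠ b → p.Δ (n + 1) ≤ |s a - s b|) :
    Psi p s 𝒢 S φ D n z ≤ ∑ a ∈ S z, (φ {a} z + 2 * D z) := by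
  classical
  unfold Psi
  rw [Finset.sum_sigma']
  have hinj : Set.InjOn (fun x : (Σ _ : Finset ι, Finset ι) => x.2)
      ((Lab p s 𝒢 n (S z)).sigma fun P => cls p s n P :
        Finset (Σ _ : Finset ι, Finset ι)) := by
    rintro ⟨P, C⟩ hx ⟨P', C'⟩ hx' hxx
    simp only [Finset.coe_sigma, Set.mem_sigma_iff, Finset.mem_coe] at hx hx'
    obtain ⟨hP, hC⟩ := hx
    obtain ⟨hP', hC'⟩ := hx'
    dsimp only at hxx
    subst hxx
    obtain ⟨hPc, hPg⟩ := mem_Lab.1 hP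
    obtain ⟨hPc', _⟩ := mem_Lab.1 hP'
    obtain ⟨a, ha⟩ := hg.cls_ne hPg hPc.2.1 hC
    have := hPc.eq hPc' (cls_sub hC ha) (cls_sub hC' ha)
    subst this
    rfl
  rw [← Finset.sum_image (f := fun C => φ C z + 2 * D z) hinj]
  have hinj2 : Set.InjOn (fun a : ι => ({a} : Finset ι)) (S z : Set ι) :=
    fun a _ b _ hab => singleton_injective hab
  rw [← Finset.sum_image (f := fun C => φ C z + 2 * D z) hinj2]
  refine Finset.sum_le_sum_of_subset ?_
  intro C hC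
  rw [mem_image] at hC
  obtain ⟨⟨P, C'⟩, hx, hxC⟩ := hC
  dsimp only at hxC
  subst hxC
  simp only [Finset.mem_sigma] at hx
  obtain ⟨hP, hC⟩ := hx
  obtain ⟨hPc, hPg⟩ := mem_Lab.1 hP
  obtain ⟨a, ha⟩ := hg.cls_ne hPg hPc.2.1 hC
  have haS : a ∈ S z := hPc.1 (cls_sub hC ha)
  rw [mem_image]
  refine ⟨a, haS, ?_⟩
  symm
  rw [eq_singleton_iff_unique_mem]
  refine ⟨ha, fun b hb => ?_⟩
  by_contra hne
  have h1 := hn a haS b (hPc.1 (cls_sub hC hb)) (fun h => hne h.symm)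
  have h2 := hg.cls_diam hPg hPc.2.1 hC ha hb
  have h3 := (hg.tau_spec hPg hPc.2.1).1.le
  linarith

/-- The recursion. -/
theorem Rec.glue (h : Rec p s 𝒢 S φ D B X v) (h0 : ∀ a b, |s a - s b| < p.H * p.Δ 2)
    {n : ℕ} (hn : ∀ z, ∀ a ∈ S z, ∀ b ∈ S z, a ≠ b → p.Δ (n + 1) ≤ |s a - s b|)
    {F : Set (ℝ × ℝ)} (hF : MeasurableSet F) (hFg : ∀ z ∈ F, 𝒢 (S z))
    (hFne : ∀ z ∈ F, (S z).Nonempty) :
    ∫⁻ z in F, φ (S z) z ≤ ∫⁻ z, ∑ a ∈ S z, (φ {a} z + 2 * D z) :=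
  calc ∫⁻ z in F, φ (S z) z ≤ ∫⁻ z in F, Psi p s 𝒢 S φ D 0 z :=
        setLIntegral_mono' hF fun z hz => Psi_zero_ge h.good h0 (hFg z hz) (hFne z hz)
    _ ≤ ∫⁻ z, Psi p s 𝒢 S φ D 0 z := setLIntegral_le_lintegral _ _
    _ ≤ ∫⁻ z, Psi p s 𝒢 S φ D n z := h.steps n
    _ ≤ _ := lintegral_mono fun z => Psi_last_le h.good (hn z)

end

end Vale.Agent.P112.H884
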